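import Vale.Agent.P290Z.Nk.DefsA
import Vale.Agent.P268.Hol

/-! P290Z Nk, COUSIN: the Laurent decomposition with parameters. -/

set_option linter.unusedVariables false
set_option linter.unusedSectionVars false

open scoped Topology Real
open Set Filter Metric Complex

noncomputable section

namespace Vale.Agent.P290Z.Nk.CO

open Vale.Agent.P290

variable {F : Type} [NormedAddCommGroup F] [NormedSpace ℂ F] [CompleteSpace F]

theorem diffAt_circle {G : (ℂ × ℂ) × ℂ → F} {O : Set ((ℂ × ℂ) × ℂ)} (hO : IsOpen O)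
    (hG : DifferentiableOn ℂ G O) {R : ℝ} (hR : 0 ≤ R) {x : ℂ × ℂ}
    (hx : ∀ t ∈ sphere (0 : ℂ) R, (x, t) ∈ O) :
    DifferentiableAt ℂ (fun y => ∮ t in C(0, R), G (y, t)) x := by
  obtain ⟨U, W, hU, hW, h1, h2, h3⟩ := generalized_tube_lemma (isCompact_singleton (x := x))
    (isCompact_sphere (0 : ℂ) R) hO (by
      rintro ⟨y, t⟩ ⟨hy, ht⟩
      obtain rfl : y = x := hy
      exact hx t ht)
  exact (P268.differentiableOn_circleIntegral hR hU hW h2 (hG.mono h3)).differentiableAt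
    (hU.mem_nhds (h1 rfl))

theorem diffOn_tsum {f : ℕ → ℂ × ℂ → F} {U : Set (ℂ × ℂ)} (hU : IsOpen U) {u : ℕ → ℝ}
    (hu : Summable u) (hf : ∀ n, DifferentiableOn ℂ (f n) U) (hb : ∀ n, ∀ v ∈ U, ‖f n v‖ ≤ u n) :
    DifferentiableOn ℂ (fun v => ∑' n, f n v) U := by
  intro x hx
  obtain ⟨r, hr, h⟩ := Metric.isOpen_iff.1 hU x hx
  have hs : ∀ y ∈ ball x (r / 2), ball y (r / 2) ⊆ U := fun y hy =>
    (ball_subset_ball' (by rw [mem_ball] at hy; linarith)).trans h
  have h2 : 0 < r / 2 := by positivity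
  exact (hasFDerivAt_tsum_of_isPreconnected (u := fun n => u n / (r / 2))
    (f' := fun n y => fderiv ℂ (f n) y) (hu.div_const _) isOpen_ball
    (convex_ball x (r / 2)).isPreconnected
    (fun n y hy => ((hf n).differentiableAt
      (hU.mem_nhds (hs y hy (mem_ball_self h2)))).hasFDerivAt)
    (fun n y hy => P268.norm_fderiv_le_of_ball h2 ((hf n).mono (hs y hy))
      fun z hz => hb n z (hs y hy hz)) (mem_ball_self h2)
    (Summable.of_norm_bounded hu fun n => hb n x hx)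
    (mem_ball_self h2)).differentiableAt.differentiableWithinAt

/-- the overlap -/
def Om (η : ℝ) : Set (ℂ × ℂ) := {v | 8⁻¹ < ‖v.2‖ ∧ ‖v.2‖ < 2 ∧ ‖v.1‖ * ‖v.2‖ ^ 2 < η}

/-- the large domain -/
def De (η : ℝ) : Set (ℂ × ℂ) := {v | ‖v.2‖ < 3 ∧ ‖v.1‖ * ‖v.2‖ ^ 2 < 16 * η}

/-- the small domain -/
def Wd (η : ℝ) : Set (ℂ × ℂ) := {v | ‖v.1‖ < η / 4 ∧ ‖v.2‖ < 4 / 3}

theorem isOpen_Om (η : ℝ) : IsOpen (Om η) := by
  refine IsOpen.and (isOpen_lt ?_ ?_) (IsOpen.and (isOpen_lt ?_ ?_) (isOpen_lt ?_ ?_)) <;>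
    fun_prop

theorem isOpen_De (η : ℝ) : IsOpen (De η) := by
  refine IsOpen.and (isOpen_lt ?_ ?_) (isOpen_lt ?_ ?_) <;> fun_prop

theorem isOpen_Wd (η : ℝ) : IsOpen (Wd η) := by
  refine IsOpen.and (isOpen_lt ?_ ?_) (isOpen_lt ?_ ?_) <;> fun_prop

theorem Wd_De {η : ℝ} : Wd η ⊆ De η := fun v hv => by
  obtain ⟨h1, h2⟩ := hv
  have h3 := norm_nonneg v.1
  have h4 := norm_nonneg v.2
  refine ⟨by linarith, ?_⟩
  have : ‖v.2‖ ^ 2 ≤ 2 := by nlinarith
  nlinarith

/-- bounded holomorphic functions which vanish for `h = 0` -/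
structure Cls (U : Set (ℂ × ℂ)) (M : ℝ) (e : ℂ × ℂ → F) : Prop where
  hol : DifferentiableOn ℂ e U
  le : ∀ v ∈ U, ‖e v‖ ≤ M
  zero : ∀ v ∈ U, v.1 = 0 → e v = 0

/-- the positive part -/
def pl (e : ℂ × ℂ → F) (v : ℂ × ℂ) : F :=
  (2 * π * I : ℂ)⁻¹ • ∮ t in C(0, 3 / 2), (t - v.2)⁻¹ • e (v.1, t)

/-- the negative part, in the other chart -/
def ng (e : ℂ × ℂ → F) (v : ℂ × ℂ) : F :=
  (2 * π * I : ℂ)⁻¹ • ∮ t in C(0, 1 / 4), (v.2 ^ 2 / (v.2 * t - 1)) • e (v.1 * v.2 ^ 2, t)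

theorem mem_Om {η : ℝ} {h t : ℂ} (hh : ‖h‖ < η / 4) (h1 : 8⁻¹ < ‖t‖) (h2 : ‖t‖ < 2) :
    (h, t) ∈ Om η := by
  refine ⟨h1, h2, ?_⟩
  have h3 := norm_nonneg h
  have h4 := norm_nonneg t
  have : ‖t‖ ^ 2 ≤ 4 := by nlinarith
  show ‖h‖ * ‖t‖ ^ 2 < η
  nlinarith

theorem Cls.pl {η M : ℝ} {e : ℂ × ℂ → F} (he : Cls (Om η) M e) : Cls (Wd η) (9 * M) (pl e) := by
  have hm : ∀ v ∈ Wd η, ∀ t ∈ sphere (0 : ℂ) (3 / 2), (v.1, t) ∈ Om η ∧ 1 / 6 ≤ ‖t - v.2‖ := by
    intro v hv t ht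
    rw [mem_sphere_zero_iff_norm] at ht
    refine ⟨mem_Om hv.1 (by rw [ht]; norm_num) (by rw [ht]; norm_num), ?_⟩
    have := norm_sub_norm_le t v.2
    linarith [hv.2]
  refine ⟨fun v hv => ?_, fun v hv => ?_, fun v hv h0 => ?_⟩
  · refine (DifferentiableAt.const_smul ?_ _).differentiableWithinAt
    refine diffAt_circle (G := fun p => (p.2 - p.1.2)⁻¹ • e (p.1.1, p.2))
      (O := {p | p.2 - p.1.2 ≠ 0} ∩ (fun p => (p.1.1, p.2)) ⁻¹' Om η)
      ((isOpen_ne_fun (by fun_prop) continuous_const).inter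
        ((isOpen_Om η).preimage (by fun_prop))) ?_ (by norm_num) fun t ht => ⟨?_, (hm v hv t ht).1⟩
    · refine DifferentiableOn.smul (DifferentiableOn.inv (by fun_prop) fun p hp => hp.1) ?_
      exact he.hol.comp (by fun_prop) fun p hp => hp.2
    · have := (hm v hv t ht).2
      exact norm_pos_iff.1 (by linarith)
  · refine (circleIntegral.norm_two_pi_i_inv_smul_integral_le_of_norm_le_const (C := 6 * M)
      (by norm_num) fun t ht => ?_).trans (le_of_eq (by ring))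
    obtain ⟨h1, h2⟩ := hm v hv t ht
    rw [norm_smul, norm_inv]
    exact mul_le_mul (inv_le_of_inv_le₀ (by norm_num) (by linarith)) (he.le _ h1)
      (norm_nonneg _) (by norm_num)
  · unfold CO.pl
    rw [circleIntegral.integral_congr (g := fun _ => 0) (by norm_num) fun t ht => by
      simp only [he.zero _ (hm v hv t ht).1 h0, smul_zero]]
    simp [circleIntegral]

theorem Cls.ng {η M : ℝ} {e : ℂ × ℂ → F} (he : Cls (Om η) M e) : Cls (De η) (9 * M) (ng e) := by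
  have hm : ∀ v ∈ De η, ∀ t ∈ sphere (0 : ℂ) (1 / 4),
      (v.1 * v.2 ^ 2, t) ∈ Om η ∧ 1 / 4 ≤ ‖v.2 * t - 1‖ := by
    intro v hv t ht
    rw [mem_sphere_zero_iff_norm] at ht
    refine ⟨⟨by rw [ht]; norm_num, by rw [ht]; norm_num, ?_⟩, ?_⟩
    · show ‖v.1 * v.2 ^ 2‖ * ‖t‖ ^ 2 < η
      rw [norm_mul, norm_pow, ht]
      linarith [hv.2]
    · have := norm_sub_norm_le (1 : ℂ) (v.2 * t)
      rw [norm_sub_rev, norm_mul, ht, norm_one] at this
      linarith [hv.1]
  refine ⟨fun v hv => ?_, fun v hv => ?_, fun v hv h0 => ?_⟩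
  · refine (DifferentiableAt.const_smul ?_ _).differentiableWithinAt
    refine diffAt_circle
      (G := fun p => (p.1.2 ^ 2 / (p.1.2 * p.2 - 1)) • e (p.1.1 * p.1.2 ^ 2, p.2))
      (O := {p | p.1.2 * p.2 - 1 ≠ 0} ∩ (fun p => (p.1.1 * p.1.2 ^ 2, p.2)) ⁻¹' Om η)
      ((isOpen_ne_fun (by fun_prop) continuous_const).inter
        ((isOpen_Om η).preimage (by fun_prop))) ?_ (by norm_num) fun t ht => ⟨?_, (hm v hv t ht).1⟩
    · simp only [div_eq_mul_inv]
      refine DifferentiableOn.smul (DifferentiableOn.mul (by fun_prop)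
        (DifferentiableOn.inv (by fun_prop) fun p hp => hp.1)) ?_
      exact he.hol.comp (by fun_prop) fun p hp => hp.2
    · have := (hm v hv t ht).2
      exact norm_pos_iff.1 (by linarith)
  · refine (circleIntegral.norm_two_pi_i_inv_smul_integral_le_of_norm_le_const (C := 36 * M)
      (by norm_num) fun t ht => ?_).trans (le_of_eq (by ring))
    obtain ⟨h1, h2⟩ := hm v hv t ht
    rw [norm_smul, norm_div, norm_pow]
    refine mul_le_mul ?_ (he.le _ h1) (norm_nonneg _) (by norm_num)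
    rw [div_le_iff₀ (by linarith)]
    have := norm_nonneg v.2
    nlinarith [hv.1]
  · unfold CO.ng
    rw [circleIntegral.integral_congr (g := fun _ => 0) (by norm_num) fun t ht => by
      simp only [he.zero _ (hm v hv t ht).1 (by simp [h0]), smul_zero]]
    simp [circleIntegral]

/-- the Cauchy formula for an annulus -/
theorem cauchy_ann {f : ℂ → F} {O : Set ℂ} (hO : IsOpen O) (hf : DifferentiableOn ℂ f O)
    {r R : ℝ} (hr : 0 < r) (hOs : closedBall 0 R \ ball 0 r ⊆ O) {u : ℂ} (h1 : r < ‖u‖)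
    (h2 : ‖u‖ < R) :
    (∮ t in C(0, R), (t - u)⁻¹ • f t) - (∮ t in C(0, r), (t - u)⁻¹ • f t) =
      (2 * π * I : ℂ) • f u := by
  have hu : u ∈ O := hOs ⟨by simpa using h2.le, by simpa using h1.le⟩
  have hd : DifferentiableOn ℂ (dslope f u) O :=
    (differentiableOn_dslope (hO.mem_nhds hu)).2 hf
  have h3 := circleIntegral_eq_of_differentiable_on_annulus_off_countable hr (h1.trans h2).le
    (f := dslope f u) countable_empty (hd.continuousOn.mono hOs) fun z hz =>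
      hd.differentiableAt (hO.mem_nhds (hOs ⟨ball_subset_closedBall hz.1.1,
        fun h => hz.1.2 (ball_subset_closedBall h)⟩))
  have key : ∀ ρ : ℝ, r ≤ ρ → ρ ≤ R → ρ ≠ ‖u‖ → (∮ t in C(0, ρ), (t - u)⁻¹ • f t) =
      (∮ t in C(0, ρ), dslope f u t) + (∮ t in C(0, ρ), (t - u)⁻¹) • f u := by
    intro ρ a b c
    have h0 : 0 ≤ ρ := hr.le.trans a
    have hs : sphere (0 : ℂ) ρ ⊆ O := fun t ht => hOs (by
      rw [mem_sphere_zero_iff_norm] at ht
      exact ⟨by simpa [ht] using b, by simpa [ht] using a⟩)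
    have hne : ∀ t ∈ sphere (0 : ℂ) ρ, t ≠ u := fun t ht h => c (by
      rw [mem_sphere_zero_iff_norm] at ht; rw [← h, ht])
    have i1 : CircleIntegrable (dslope f u) 0 ρ := (hd.continuousOn.mono hs).circleIntegrable h0
    have i2 : CircleIntegrable (fun t => (t - u)⁻¹ • f u) 0 ρ :=
      (ContinuousOn.smul (ContinuousOn.inv₀ (by fun_prop) fun t ht => sub_ne_zero.2 (hne t ht))
        continuousOn_const).circleIntegrable h0
    rw [← circleIntegral.integral_smul_const, ← circleIntegral.integral_add i1 i2]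
    refine circleIntegral.integral_congr h0 fun t ht => ?_
    simp only [dslope_of_ne _ (hne t ht), slope_def_module, ← smul_add, sub_add_cancel]
  have h4 : (∮ t in C(0, r), (t - u)⁻¹) = 0 := by
    refine circleIntegral_eq_zero_of_differentiable_on_off_countable hr.le countable_empty
      (ContinuousOn.inv₀ (by fun_prop) fun t ht h => ?_) fun t ht =>
        DifferentiableAt.inv (by fun_prop) fun h => ?_
    · rw [sub_eq_zero.1 h, mem_closedBall_zero_iff] at ht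
      linarith
    · have := ht.1
      rw [sub_eq_zero.1 h, mem_ball_zero_iff] at this
      linarith
  rw [key R (h1.trans h2).le le_rfl h2.ne', key r le_rfl (h1.trans h2).le h1.ne, h3, h4,
    circleIntegral.integral_sub_inv_of_mem_ball (by simpa using h2)]
  simp

theorem Cls.split {η M : ℝ} {e : ℂ × ℂ → F} (he : Cls (Om η) M e) {v : ℂ × ℂ} (hv : v ∈ Wd η)
    (h4 : 1 / 4 < ‖v.2‖) : e v = CO.pl e v - v.2 • CO.ng e (v.1 * v.2 ^ 2, v.2⁻¹) := by
  have h0 : v.2 ≠ 0 := norm_pos_iff.1 (by linarith)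
  have hc := cauchy_ann (f := fun t => e (v.1, t)) (O := (fun t => (v.1, t)) ⁻¹' Om η)
    ((isOpen_Om η).preimage (by fun_prop)) (he.hol.comp (by fun_prop) fun p hp => hp)
    (r := 1 / 4) (R := 3 / 2) (by norm_num) (fun t ht => by
      have a : ‖t‖ ≤ 3 / 2 := by simpa using ht.1
      have b : 1 / 4 ≤ ‖t‖ := by simpa using ht.2
      exact mem_Om hv.1 (by linarith) (by linarith)) h4 (by linarith [hv.2])
  have h5 : v.2 • CO.ng e (v.1 * v.2 ^ 2, v.2⁻¹) =
      (2 * π * I : ℂ)⁻¹ • ∮ t in C(0, 1 / 4), (t - v.2)⁻¹ • e (v.1, t) := by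
    unfold CO.ng
    rw [smul_comm, ← circleIntegral.integral_smul]
    congr 1
    refine circleIntegral.integral_congr (by norm_num) fun t ht => ?_
    have hne : t - v.2 ≠ 0 := fun h => by
      rw [mem_sphere_zero_iff_norm, sub_eq_zero.1 h] at ht
      linarith
    have e1 : v.1 * v.2 ^ 2 * v.2⁻¹ ^ 2 = v.1 := by field_simp
    have e2 : v.2 * (v.2⁻¹ ^ 2 / (v.2⁻¹ * t - 1)) = (t - v.2)⁻¹ := by
      have : v.2⁻¹ * t - 1 = v.2⁻¹ * (t - v.2) := by field_simp
      rw [this]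
      field_simp
    simp only [smul_smul, e1, e2]
  rw [h5]
  unfold CO.pl
  rw [← smul_sub, hc, smul_smul, inv_mul_cancel₀ two_pi_I_ne_zero, one_smul]

end Vale.Agent.P290Z.Nk.CO
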