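import Vale.Agent.P290Z.Nk.Cousin.A

/-! P290Z Nk, COUSIN: the iteration. -/

set_option linter.unusedVariables false
set_option linter.unusedSectionVars false

open scoped Topology Real
open Set Filter Metric Complex

noncomputable section

namespace Vale.Agent.P290Z.Nk.CO

variable {F : Type} [NormedAddCommGroup F] [NormedSpace ℂ F] [CompleteSpace F]

/-- a small perturbation of the identity -/
structure Pt (η : ℝ) (μ : ℂ × ℂ → ℂ) (Φ : ℂ × ℂ → ℂ × ℂ) : Prop where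
  dμ : DifferentiableOn ℂ μ (Om η)
  dΦ : DifferentiableOn ℂ Φ (Om η)
  le : ∀ v ∈ Om η, ‖μ v - 1‖ ≤ 1 / 4000
  fst : ∀ v ∈ Om η, (Φ v).1 = v.1 * μ v ^ 2
  snd : ∀ v ∈ Om η, ‖(Φ v).2 - v.2‖ ≤ 1 / 4000

/-- the error -/
def Dr (μ : ℂ × ℂ → ℂ) (Φ : ℂ × ℂ → ℂ × ℂ) (g : ℂ × ℂ → F) (v : ℂ × ℂ) : F := μ v • g (Φ v) - g v

theorem Pt.line {η : ℝ} {μ : ℂ × ℂ → ℂ} {Φ : ℂ × ℂ → ℂ × ℂ} (h : Pt η μ Φ) {v : ℂ × ℂ}
    (hv : v ∈ Om η) {t : ℂ} (ht : ‖t‖ < 40) : v + t • (Φ v - v) ∈ De η := by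
  obtain ⟨h1, h2, h3⟩ := id hv
  have a0 := norm_nonneg v.1
  have t0 := norm_nonneg t
  have m1 := h.le v hv
  have m2 : ‖μ v ^ 2 - 1‖ ≤ 3 / 4000 := by
    have e : μ v ^ 2 - 1 = (μ v - 1) * ((μ v - 1) + 2) := by ring
    have : ‖(μ v - 1) + 2‖ ≤ 3 := (norm_add_le _ _).trans (by rw [Complex.norm_two]; linarith)
    rw [e, norm_mul]
    nlinarith [norm_nonneg (μ v - 1), norm_nonneg (μ v - 1 + 2)]
  have b1 : ‖(v + t • (Φ v - v)).1‖ ≤ ‖v.1‖ * (103 / 100) := by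
    have e : (v + t • (Φ v - v)).1 = v.1 * (1 + t * (μ v ^ 2 - 1)) := by
      simp only [Prod.fst_add, Prod.smul_fst, Prod.fst_sub, h.fst v hv, smul_eq_mul]
      ring
    rw [e, norm_mul]
    refine mul_le_mul_of_nonneg_left ((norm_add_le _ _).trans ?_) a0
    rw [norm_one, norm_mul]
    nlinarith [norm_nonneg (μ v ^ 2 - 1)]
  have b2 : ‖(v + t • (Φ v - v)).2‖ ≤ ‖v.2‖ + 1 / 100 := by
    refine (norm_add_le _ _).trans ?_
    simp only [Prod.smul_snd, Prod.snd_sub, norm_smul]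
    nlinarith [norm_nonneg ((Φ v).2 - v.2), h.snd v hv]
  refine ⟨by linarith, ?_⟩
  have b3 : ‖(v + t • (Φ v - v)).2‖ ^ 2 ≤ (2 * ‖v.2‖) ^ 2 :=
    pow_le_pow_left₀ (norm_nonneg _) (by linarith) 2
  have b4 := mul_le_mul b1 b3 (by positivity) (by positivity)
  have : 0 ≤ ‖v.1‖ * ‖v.2‖ ^ 2 := by positivity
  nlinarith

theorem Cls.dr {η M : ℝ} {μ : ℂ × ℂ → ℂ} {Φ : ℂ × ℂ → ℂ × ℂ} (h : Pt η μ Φ) {g : ℂ × ℂ → F}
    (hg : Cls (De η) M g) : Cls (Om η) (M / 18) (Dr μ Φ g) := by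
  have m0 : ∀ v ∈ Om η, v ∈ De η := fun v hv => by simpa using h.line hv (t := 0) (by simp)
  have m1 : ∀ v ∈ Om η, Φ v ∈ De η := fun v hv => by simpa using h.line hv (t := 1) (by simp)
  refine ⟨(h.dμ.smul (hg.hol.comp h.dΦ m1)).sub (hg.hol.mono m0), fun v hv => ?_,
    fun v hv h0 => ?_⟩
  · have hM : 0 ≤ M := (norm_nonneg _).trans (hg.le v (m0 v hv))
    have hs := Complex.dist_le_div_mul_dist_of_mapsTo_ball (f := fun t : ℂ => g (v + t • (Φ v - v)))
      (c := 0) (R₁ := 40) (R₂ := 2 * M) (z := 1)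
      (hg.hol.comp (by fun_prop) fun t ht => h.line hv (by simpa using ht)) (fun t ht => by
        rw [mem_closedBall, dist_eq_norm]
        have a := hg.le _ (h.line hv (t := t) (by simpa using ht))
        have b := hg.le _ (h.line hv (t := 0) (by simp))
        exact (norm_sub_le _ _).trans (by linarith)) (by simp)
    simp only [one_smul, add_sub_cancel, zero_smul, add_zero, dist_eq_norm, sub_zero, norm_one,
      mul_one] at hs
    have e : Dr μ Φ g v = (μ v - 1) • g (Φ v) + (g (Φ v) - g v) := by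
      simp only [Dr, sub_smul, one_smul]
      abel
    rw [e]
    refine (norm_add_le _ _).trans ?_
    rw [norm_smul]
    have := mul_le_mul (h.le v hv) (hg.le _ (m1 v hv)) (norm_nonneg _) (by norm_num)
    linarith
  · simp only [Dr, hg.zero v (m0 v hv) h0, hg.zero _ (m1 v hv) (by rw [h.fst v hv, h0, zero_mul]),
      smul_zero, sub_zero]

/-- the errors -/
def er (μ : Bool → ℂ × ℂ → ℂ) (Φ : Bool → ℂ × ℂ → ℂ × ℂ) (e : Bool → ℂ × ℂ → F) :
    ℕ → Bool → ℂ × ℂ → F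
  | 0 => e
  | n + 1 => fun b => Dr (μ b) (Φ b) (ng (er μ Φ e n (!b)))

/-- the corrections -/
def cr (μ : Bool → ℂ × ℂ → ℂ) (Φ : Bool → ℂ × ℂ → ℂ × ℂ) (e : Bool → ℂ × ℂ → F) (n : ℕ) (b : Bool)
    (v : ℂ × ℂ) : F := pl (er μ Φ e n b) v + ng (er μ Φ e n (!b)) v

variable {η M : ℝ} {μ : Bool → ℂ × ℂ → ℂ} {Φ : Bool → ℂ × ℂ → ℂ × ℂ} {e : Bool → ℂ × ℂ → F}

theorem cls_er (h : ∀ b, Pt η (μ b) (Φ b)) (he : ∀ b, Cls (Om η) M (e b)) (n : ℕ) :
    ∀ b, Cls (Om η) (M * (1 / 2) ^ n) (er μ Φ e n b) := by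
  induction n with
  | zero => simpa [er] using he
  | succ n ih =>
    intro b
    have := (ih (!b)).ng.dr (h b)
    have e1 : 9 * (M * (1 / 2) ^ n) / 18 = M * (1 / 2) ^ (n + 1) := by ring
    rw [e1] at this
    exact this

theorem cls_cr (h : ∀ b, Pt η (μ b) (Φ b)) (he : ∀ b, Cls (Om η) M (e b)) (n : ℕ) (b : Bool) :
    Cls (Wd η) (18 * M * (1 / 2) ^ n) (cr μ Φ e n b) := by
  have a := (cls_er h he n b).pl
  have c := (cls_er h he n (!b)).ng
  refine ⟨a.hol.add (c.hol.mono Wd_De), fun v hv => (norm_add_le _ _).trans ?_, fun v hv h0 => ?_⟩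
  · linarith [a.le v hv, c.le v (Wd_De hv)]
  · simp only [cr, a.zero v hv h0, c.zero v (Wd_De hv) h0, add_zero]

/-- the solution of the Cousin problem -/
theorem solve (h : ∀ b, Pt η (μ b) (Φ b)) (he : ∀ b, Cls (Om η) M (e b)) :
    ∃ S : Bool → ℂ × ℂ → F, (∀ b, DifferentiableOn ℂ (S b) (Wd η)) ∧
      (∀ b, ∀ v ∈ Wd η, v.1 = 0 → S b v = 0) ∧
      ∀ (v w : ℂ × ℂ) (β : ℂ), v ∈ Wd η → w ∈ Wd η → v ∈ Om η → w ∈ Om η → 1 / 4 < ‖v.2‖ →
        1 / 4 < ‖w.2‖ → Φ true v = (w.1 * w.2 ^ 2, w.2⁻¹) → Φ false w = (v.1 * v.2 ^ 2, v.2⁻¹) →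
        μ true v = β * w.2 → β * μ false w = v.2 →
        e true v - β • e false w = S true v - β • S false w := by
  have hs : Summable fun n : ℕ => 18 * M * (1 / 2 : ℝ) ^ n := summable_geometric_two.mul_left _
  refine ⟨fun b v => ∑' n, cr μ Φ e n b v, fun b => diffOn_tsum (isOpen_Wd η) hs
    (fun n => (cls_cr h he n b).hol) fun n => (cls_cr h he n b).le, fun b v hv h0 => ?_,
    fun v w β hv hw hv' hw' v4 w4 e1 e2 e3 e4 => ?_⟩
  · simp only [fun n => (cls_cr h he n b).zero v hv h0, tsum_zero]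
  · have s1 := Summable.of_norm_bounded hs fun n => (cls_cr h he n true).le v hv
    have s2 := Summable.of_norm_bounded hs fun n => (cls_cr h he n false).le w hw
    set Δ : ℕ → F := fun n => er μ Φ e n true v - β • er μ Φ e n false w with hΔ
    have st : ∀ n, cr μ Φ e n true v - β • cr μ Φ e n false w = Δ n - Δ (n + 1) := by
      intro n
      have a := (cls_er h he n true).split hv v4
      have b := (cls_er h he n false).split hw w4
      simp only [hΔ, cr, er, Dr, Bool.not_true, Bool.not_false, e1, e2, e3]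
      rw [a, b, ← e4]
      module
    have lim : Tendsto Δ atTop (𝓝 0) := by
      have t0 : Tendsto (fun n : ℕ => M * (1 / 2 : ℝ) ^ n) atTop (𝓝 0) :=
        (summable_geometric_two.mul_left M).tendsto_atTop_zero
      have t1 := squeeze_zero_norm (fun n => (cls_er h he n true).le v hv') t0
      have t2 := squeeze_zero_norm (fun n => (cls_er h he n false).le w hw') t0
      simpa using t1.sub (t2.const_smul β)
    have hsum := (s1.hasSum.sub (s2.hasSum.const_smul β)).tendsto_sum_nat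
    simp only [st, Finset.sum_range_sub'] at hsum
    have := tendsto_nhds_unique hsum (tendsto_const_nhds.sub lim)
    rw [this, sub_zero]
    rfl

end Vale.Agent.P290Z.Nk.CO
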